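/-
S0453 (row 299), WP-D2 (insurance route, no eigenvector): two elementary tools.
* `abs_le_of_sq_le_mul_bounded`: the "power trick". If `a k ^ 2 ≤ a 0 * a (2k)` and `a` is
  bounded above, then `|a 1| ≤ a 0`.  (For `a k = B x (T^k x)` with `T` symmetric for the PSD
  form `B` and power-bounded, this says `|B x (T x)| ≤ B x x`.)
* `cs_of_psd`: Cauchy–Schwarz for a symmetric positive semidefinite bilinear function.
-/
import Mathlib

set_option autoImplicit false

namespace Crest.Agent.Helper42.L3.OneD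

theorem abs_le_of_sq_le_mul_bounded (a : ℕ → ℝ) (C : ℝ) (h0 : 0 ≤ a 0)
    (hsq : ∀ k, a k ^ 2 ≤ a 0 * a (2 * k)) (hbd : ∀ k, a k ≤ C) : |a 1| ≤ a 0 := by
  by_contra hcon
  rw [not_le] at hcon
  have ha0 : 0 < a 0 := by
    rcases h0.lt_or_eq with h | h
    · exact h
    · exfalso
      have h1 := hsq 1
      rw [← h, zero_mul] at h1
      have h2 : a 1 = 0 := by nlinarith [sq_nonneg (a 1)]
      rw [h2, ← h] at hcon
      simp at hcon
  set r := |a 1| / a 0 with hr
  have hr1 : 1 < r := by rw [hr, one_lt_div ha0]; exact hcon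
  have hr0 : 0 < r := lt_trans one_pos hr1
  have claim : ∀ m : ℕ, a 0 * r ^ (2 ^ (m + 1)) ≤ a (2 ^ (m + 1)) := by
    intro m
    induction m with
    | zero =>
      have h1 := hsq 1
      have h2 : a 0 * r ^ 2 = a 1 ^ 2 / a 0 := by
        rw [hr, div_pow, sq_abs]; field_simp
      simp only [zero_add, pow_one, mul_one] at h1 ⊢
      rw [h2, div_le_iff₀ ha0]; linarith [h1]
    | succ m ih =>
      have h1 := hsq (2 ^ (m + 1))
      have hpos : 0 ≤ a 0 * r ^ (2 ^ (m + 1)) := by positivity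
      have h2 : (a 0 * r ^ (2 ^ (m + 1))) ^ 2 ≤ a (2 ^ (m + 1)) ^ 2 :=
        pow_le_pow_left₀ hpos ih 2
      have h3 : (a 0 * r ^ (2 ^ (m + 1))) ^ 2 = a 0 * (a 0 * r ^ (2 ^ (m + 1 + 1))) := by
        rw [pow_succ 2 (m + 1), pow_mul]; ring
      have h4 : 2 * 2 ^ (m + 1) = 2 ^ (m + 1 + 1) := by ring
      rw [h4] at h1
      exact le_of_mul_le_mul_left (by linarith) ha0
  obtain ⟨N, hN⟩ := pow_unbounded_of_one_lt (C / a 0) hr1
  have h5 : r ^ N ≤ r ^ (2 ^ (N + 1)) := by
    apply pow_le_pow_right₀ hr1.le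
    have := Nat.lt_two_pow_self (n := N + 1)
    omega
  have h6 := claim N
  have h7 := hbd (2 ^ (N + 1))
  have h8 : C / a 0 < r ^ (2 ^ (N + 1)) := lt_of_lt_of_le hN h5
  rw [div_lt_iff₀ ha0] at h8
  nlinarith

/-- Cauchy–Schwarz for a symmetric PSD bilinear function on a real vector space. -/
theorem cs_of_psd {V : Type*} [AddCommGroup V] [Module ℝ V] (B : V → V → ℝ)
    (hsymm : ∀ x y, B x y = B y x)
    (hadd : ∀ x y z, B (x + y) z = B x z + B y z)
    (hsmul : ∀ (c : ℝ) x z, B (c • x) z = c * B x z)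
    (hpos : ∀ x, 0 ≤ B x x) (x y : V) : B x y ^ 2 ≤ B x x * B y y := by
  have key : ∀ t : ℝ, 0 ≤ B y y * (t * t) + 2 * B x y * t + B x x := by
    intro t
    have h := hpos (x + t • y)
    have e : B (x + t • y) (x + t • y) = B y y * (t * t) + 2 * B x y * t + B x x := by
      rw [hadd, hsmul, hsymm x (x + t • y), hsymm y (x + t • y), hadd, hadd, hsmul, hsmul,
        hsymm y x]
      ring
    rw [e] at h; exact h
  have hd := discrim_le_zero key
  unfold discrim at hd
  nlinarith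

end Crest.Agent.Helper42.L3.OneD
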