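/-
S0453 (row 299), WP-D2 (insurance route): two positive sequences `a`, `b` conditioned on the sum.
Efron's monotonicity (tails are nondecreasing in the sum, from log-concavity of `b`), Abel
summation, and the Lipschitz estimate `two_site_lip`.
-/
import Mathlib

set_option autoImplicit false

namespace Crest.Agent.Helper42.L3.OneD

open Finset

/-- Ratio form of log-concavity. -/
theorem lc_ratio (b : ℕ → ℝ) (hb : ∀ z, 0 < b z) (hlc : ∀ z, b z * b (z + 2) ≤ b (z + 1) ^ 2) :
    ∀ v z, b z * b (z + v + 1) ≤ b (z + 1) * b (z + v) := by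
  intro v
  induction v with
  | zero => intro z; simp [mul_comm]
  | succ v ih =>
    intro z
    have h1 := ih z
    have h2 := hlc (z + v)
    have e1 : z + (v + 1) + 1 = z + v + 2 := by ring
    have e2 : z + (v + 1) = z + v + 1 := by ring
    rw [e1, e2]
    have hpos := hb (z + v)
    have hpos1 := hb (z + v + 1)
    have h3 : (b z * b (z + v + 2)) * b (z + v) ≤ (b (z + 1) * b (z + v + 1)) * b (z + v) := by
      have hz := (hb z).le
      nlinarith [mul_le_mul_of_nonneg_left h2 hz, mul_le_mul_of_nonneg_right h1 hpos1.le]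
    exact le_of_mul_le_mul_right h3 hpos

/-- Likelihood-ratio order implies the stochastic order of the tails. -/
theorem lr_tail (M : ℕ) (α β : ℕ → ℝ)
    (hlr : ∀ y' y, y' < y → y < M → α y' * β y ≤ α y * β y') (t : ℕ) :
    (∑ y ∈ range M, if t ≤ y then β y else 0) * (∑ y ∈ range M, α y)
      ≤ (∑ y ∈ range M, if t ≤ y then α y else 0) * (∑ y ∈ range M, β y) := by
  have hα : ∑ y ∈ range M, α y = (∑ y ∈ range M, if t ≤ y then α y else 0)
      + ∑ y ∈ range M, if t ≤ y then 0 else α y := by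
    rw [← Finset.sum_add_distrib]
    refine Finset.sum_congr rfl fun y _ => ?_
    split_ifs <;> simp
  have hβ : ∑ y ∈ range M, β y = (∑ y ∈ range M, if t ≤ y then β y else 0)
      + ∑ y ∈ range M, if t ≤ y then 0 else β y := by
    rw [← Finset.sum_add_distrib]
    refine Finset.sum_congr rfl fun y _ => ?_
    split_ifs <;> simp
  have key : (∑ y ∈ range M, if t ≤ y then β y else 0) * (∑ y ∈ range M, if t ≤ y then 0 else α y)
      ≤ (∑ y ∈ range M, if t ≤ y then α y else 0) * (∑ y ∈ range M, if t ≤ y then 0 else β y) := by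
    rw [Finset.sum_mul_sum, Finset.sum_mul_sum]
    refine Finset.sum_le_sum fun y hy => Finset.sum_le_sum fun y' _ => ?_
    by_cases h1 : t ≤ y
    · by_cases h2 : t ≤ y'
      · simp [h1, h2]
      · simp only [h1, h2, if_true, if_false]
        have := hlr y' y (by omega) (Finset.mem_range.mp hy)
        linarith [mul_comm (β y) (α y')]
    · simp [h1]
  rw [hα, hβ]
  nlinarith [key]

/-- Two-site partition function. -/
def T2 (a b : ℕ → ℝ) (s : ℕ) : ℝ := ∑ y ∈ range (s + 1), a y * b (s - y)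

/-- Two-site unnormalised expectation of `f y`. -/
def A2 (a b : ℕ → ℝ) (s : ℕ) (f : ℕ → ℝ) : ℝ := ∑ y ∈ range (s + 1), a y * b (s - y) * f y

/-- Two-site unnormalised tail `y ≥ t`. -/
def H2 (a b : ℕ → ℝ) (s t : ℕ) : ℝ := ∑ y ∈ range (s + 1), if t ≤ y then a y * b (s - y) else 0

theorem T2_pos (a b : ℕ → ℝ) (ha : ∀ y, 0 < a y) (hb : ∀ y, 0 < b y) (s : ℕ) : 0 < T2 a b s :=
  Finset.sum_pos (fun y _ => mul_pos (ha y) (hb _)) ⟨0, by simp⟩

theorem H2_top (a b : ℕ → ℝ) (s : ℕ) : H2 a b s (s + 1) = 0 := by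
  unfold H2
  refine Finset.sum_eq_zero fun y hy => ?_
  have := Finset.mem_range.mp hy
  rw [if_neg (by omega)]

/-- Efron's monotonicity: the tail probability is nondecreasing in the sum. -/
theorem efron (a b : ℕ → ℝ) (ha : ∀ y, 0 < a y) (hb : ∀ y, 0 < b y)
    (hlc : ∀ z, b z * b (z + 2) ≤ b (z + 1) ^ 2) (s t : ℕ) :
    H2 a b s t * T2 a b (s + 1) ≤ H2 a b (s + 1) t * T2 a b s := by
  have h := lr_tail (s + 2) (fun y => a y * b (s + 1 - y))
    (fun y => if y ≤ s then a y * b (s - y) else 0) ?_ t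
  · have e1 : ∑ y ∈ range (s + 2), (if y ≤ s then a y * b (s - y) else 0) = T2 a b s := by
      rw [Finset.sum_range_succ, if_neg (by omega), add_zero]
      unfold T2
      refine Finset.sum_congr rfl fun y hy => ?_
      rw [if_pos (by have := Finset.mem_range.mp hy; omega)]
    have e2 : ∑ y ∈ range (s + 2), (if t ≤ y then (if y ≤ s then a y * b (s - y) else 0) else 0)
        = H2 a b s t := by
      rw [Finset.sum_range_succ, if_neg (by omega : ¬ (s + 1 ≤ s))]
      simp only [ite_self, add_zero]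
      unfold H2
      refine Finset.sum_congr rfl fun y hy => ?_
      rw [if_pos (by have := Finset.mem_range.mp hy; omega : y ≤ s)]
    rw [e1, e2] at h
    exact h
  · intro y' y hy' hy
    by_cases hys : y ≤ s
    · have hy's : y' ≤ s := by omega
      simp only [if_pos hys, if_pos hy's]
      obtain ⟨z, rfl⟩ : ∃ z, s = y + z := ⟨s - y, by omega⟩
      obtain ⟨v, rfl⟩ : ∃ v, y = y' + v + 1 := ⟨y - y' - 1, by omega⟩
      have e1 : y' + v + 1 + z + 1 - y' = z + (v + 1) + 1 := by omega
      have e2 : y' + v + 1 + z - (y' + v + 1) = z := by omega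
      have e3 : y' + v + 1 + z + 1 - (y' + v + 1) = z + 1 := by omega
      have e4 : y' + v + 1 + z - y' = z + (v + 1) := by omega
      rw [e1, e2, e3, e4]
      have h1 := lc_ratio b hb hlc (v + 1) z
      have hpos : 0 < a y' * a (y' + v + 1) := mul_pos (ha _) (ha _)
      nlinarith [mul_le_mul_of_nonneg_left h1 hpos.le]
    · simp only [if_neg hys, mul_zero]
      have hy's : y' ≤ s := by omega
      simp only [if_pos hy's]
      exact mul_nonneg (mul_nonneg (ha _).le (hb _).le) (mul_nonneg (ha _).le (hb _).le)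

/-- Abel summation. -/
theorem abel (u f : ℕ → ℝ) (m : ℕ) :
    ∑ y ∈ range (m + 1), u y * f y = f 0 * ∑ y ∈ range (m + 1), u y
      + ∑ t ∈ range m, (f (t + 1) - f t) * ∑ y ∈ range (m + 1), if t + 1 ≤ y then u y else 0 := by
  have h1 : ∑ t ∈ range m, (f (t + 1) - f t) * ∑ y ∈ range (m + 1), (if t + 1 ≤ y then u y else 0)
      = ∑ y ∈ range (m + 1), u y * (f y - f 0) := by
    simp only [Finset.mul_sum]
    rw [Finset.sum_comm]
    refine Finset.sum_congr rfl fun y hy => ?_
    have hy' := Finset.mem_range.mp hy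
    have h2 : ∑ t ∈ range m, (f (t + 1) - f t) * (if t + 1 ≤ y then u y else 0)
        = u y * ∑ t ∈ range m, if t + 1 ≤ y then (f (t + 1) - f t) else 0 := by
      rw [Finset.mul_sum]
      refine Finset.sum_congr rfl fun t _ => ?_
      split_ifs <;> ring
    rw [h2, ← Finset.sum_filter]
    have h3 : (range m).filter (fun t => t + 1 ≤ y) = range y := by
      ext t; simp only [Finset.mem_filter, Finset.mem_range]; omega
    rw [h3, Finset.sum_range_sub]
  rw [h1, Finset.mul_sum, ← Finset.sum_add_distrib]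
  exact Finset.sum_congr rfl fun y _ => by ring

theorem A2_abel (a b : ℕ → ℝ) (s : ℕ) (f : ℕ → ℝ) :
    A2 a b s f = f 0 * T2 a b s + ∑ t ∈ range s, (f (t + 1) - f t) * H2 a b s (t + 1) :=
  abel (fun y => a y * b (s - y)) f s

/-- Normalised expectation as a sum over thresholds. -/
theorem E2_eq (a b : ℕ → ℝ) (ha : ∀ y, 0 < a y) (hb : ∀ y, 0 < b y) (s : ℕ) (f : ℕ → ℝ) :
    A2 a b s f / T2 a b s
      = f 0 + ∑ t ∈ range s, (f (t + 1) - f t) * (H2 a b s (t + 1) / T2 a b s) := by
  have hT := (T2_pos a b ha hb s).ne'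
  rw [A2_abel, add_div, mul_div_assoc, div_self hT, mul_one, Finset.sum_div]
  congr 1
  exact Finset.sum_congr rfl fun t _ => by rw [mul_div_assoc]

/-- The key Lipschitz estimate for one of the two sites. -/
theorem two_site_lip (a b : ℕ → ℝ) (ha : ∀ y, 0 < a y) (hb : ∀ y, 0 < b y)
    (hlc : ∀ z, b z * b (z + 2) ≤ b (z + 1) ^ 2) (s : ℕ) (f : ℕ → ℝ) (c : ℝ)
    (hf : ∀ t, t ≤ s → |f (t + 1) - f t| ≤ c) :
    |A2 a b (s + 1) f / T2 a b (s + 1) - A2 a b s f / T2 a b s|
      ≤ c * (A2 a b (s + 1) (fun y => (y : ℝ)) / T2 a b (s + 1)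
          - A2 a b s (fun y => (y : ℝ)) / T2 a b s) := by
  have hT := T2_pos a b ha hb s
  have hT1 := T2_pos a b ha hb (s + 1)
  -- coefficients
  set δ : ℕ → ℝ := fun t => H2 a b (s + 1) (t + 1) / T2 a b (s + 1) - H2 a b s (t + 1) / T2 a b s
    with hδ
  have hδ0 : ∀ t, 0 ≤ δ t := by
    intro t
    have := efron a b ha hb hlc s (t + 1)
    simp only [hδ, sub_nonneg]
    rw [div_le_div_iff₀ hT hT1]
    exact this
  have key : ∀ g : ℕ → ℝ, A2 a b (s + 1) g / T2 a b (s + 1) - A2 a b s g / T2 a b s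
      = ∑ t ∈ range (s + 1), (g (t + 1) - g t) * δ t := by
    intro g
    rw [E2_eq a b ha hb (s + 1) g, E2_eq a b ha hb s g]
    have e : ∑ t ∈ range s, (g (t + 1) - g t) * (H2 a b s (t + 1) / T2 a b s)
        = ∑ t ∈ range (s + 1), (g (t + 1) - g t) * (H2 a b s (t + 1) / T2 a b s) := by
      rw [Finset.sum_range_succ, H2_top]; simp
    rw [e]
    have : ∀ x y z : ℝ, x + y - (x + z) = y - z := fun x y z => by ring
    rw [this, ← Finset.sum_sub_distrib]
    exact Finset.sum_congr rfl fun t _ => by simp only [hδ]; ring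
  rw [key f, key (fun y => (y : ℝ)), Finset.mul_sum]
  refine le_trans (Finset.abs_sum_le_sum_abs _ _) (Finset.sum_le_sum fun t ht => ?_)
  rw [abs_mul, abs_of_nonneg (hδ0 t)]
  have h1 := hf t (by have := Finset.mem_range.mp ht; omega)
  have h2 : ((t + 1 : ℕ) : ℝ) - (t : ℝ) = 1 := by push_cast; ring
  rw [h2, one_mul]
  exact mul_le_mul_of_nonneg_right h1 (hδ0 t)

/-- Reflection: the second site. -/
theorem A2_reflect (a b : ℕ → ℝ) (s : ℕ) (h : ℕ → ℝ) :
    A2 b a s h = ∑ y ∈ range (s + 1), a y * b (s - y) * h (s - y) := by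
  unfold A2
  rw [← Finset.sum_range_reflect]
  refine Finset.sum_congr rfl fun y hy => ?_
  have hy' := Finset.mem_range.mp hy
  have e1 : s + 1 - 1 - y = s - y := by omega
  have e2 : s - (s - y) = y := by omega
  rw [e1, e2]; ring

theorem T2_symm (a b : ℕ → ℝ) (s : ℕ) : T2 b a s = T2 a b s := by
  have := A2_reflect a b s (fun _ => 1)
  simpa [A2, T2] using this

/-- The two means add up to the sum. -/
theorem mean_add (a b : ℕ → ℝ) (s : ℕ) :
    A2 a b s (fun y => (y : ℝ)) + A2 b a s (fun y => (y : ℝ)) = (s : ℝ) * T2 a b s := by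
  rw [A2_reflect a b s]
  unfold A2 T2
  rw [← Finset.sum_add_distrib, Finset.mul_sum]
  refine Finset.sum_congr rfl fun y hy => ?_
  have hy' := Finset.mem_range.mp hy
  have : ((s - y : ℕ) : ℝ) = (s : ℝ) - (y : ℝ) := by
    rw [Nat.cast_sub (by omega)]
  rw [this]; ring

end Crest.Agent.Helper42.L3.OneD
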