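/-
S0453 (row 299), WP-D2 (insurance route): the weighted covariance form on a finset.
-/
import Mathlib

set_option autoImplicit false

namespace Crest.Agent.Helper42.L3.OneD

open Finset

/-- `(∑ w)²` times the covariance of `f` and `h` for the weights `w` on `D`. -/
def wcov {Ω : Type*} (D : Finset Ω) (w : Ω → ℝ) (f h : Ω → ℝ) : ℝ :=
  (∑ l ∈ D, w l) * (∑ l ∈ D, w l * (f l * h l)) - (∑ l ∈ D, w l * f l) * (∑ l ∈ D, w l * h l)

section
variable {Ω : Type*} (D : Finset Ω) (w : Ω → ℝ)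

theorem wcov_comm (f h : Ω → ℝ) : wcov D w f h = wcov D w h f := by
  unfold wcov
  rw [mul_comm (∑ l ∈ D, w l * f l)]
  congr 2
  exact Finset.sum_congr rfl fun l _ => by ring

theorem wcov_add_left (f f' h : Ω → ℝ) : wcov D w (f + f') h = wcov D w f h + wcov D w f' h := by
  unfold wcov
  simp only [Pi.add_apply, add_mul, mul_add, Finset.sum_add_distrib]
  ring

theorem wcov_smul_left (c : ℝ) (f h : Ω → ℝ) : wcov D w (c • f) h = c * wcov D w f h := by
  unfold wcov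
  have e1 : ∑ l ∈ D, w l * ((c • f) l * h l) = c * ∑ l ∈ D, w l * (f l * h l) := by
    rw [Finset.mul_sum]; exact Finset.sum_congr rfl fun l _ => by simp; ring
  have e2 : ∑ l ∈ D, w l * (c • f) l = c * ∑ l ∈ D, w l * f l := by
    rw [Finset.mul_sum]; exact Finset.sum_congr rfl fun l _ => by simp; ring
  rw [e1, e2]; ring

theorem wcov_add_right (f h h' : Ω → ℝ) : wcov D w f (h + h') = wcov D w f h + wcov D w f h' := by
  rw [wcov_comm, wcov_add_left, wcov_comm D w h, wcov_comm D w h']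

theorem wcov_neg_right (f h : Ω → ℝ) : wcov D w f (fun l => -h l) = -wcov D w f h := by
  unfold wcov
  simp only [mul_neg, Finset.sum_neg_distrib]
  ring

theorem wcov_sum_left {ι : Type*} (s : Finset ι) (f : ι → Ω → ℝ) (h : Ω → ℝ) :
    wcov D w (fun l => ∑ i ∈ s, f i l) h = ∑ i ∈ s, wcov D w (f i) h := by
  classical
  induction s using Finset.induction_on with
  | empty => simp [wcov]
  | insert a s ha ih =>
    have : (fun l => ∑ i ∈ insert a s, f i l) = f a + fun l => ∑ i ∈ s, f i l := by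
      funext l; simp [Finset.sum_insert ha]
    rw [this, wcov_add_left, ih, Finset.sum_insert ha]

theorem wcov_sum_right {ι : Type*} (s : Finset ι) (f : Ω → ℝ) (h : ι → Ω → ℝ) :
    wcov D w f (fun l => ∑ i ∈ s, h i l) = ∑ i ∈ s, wcov D w f (h i) := by
  rw [wcov_comm, wcov_sum_left]
  exact Finset.sum_congr rfl fun i _ => wcov_comm _ _ _ _

theorem wcov_congr {f f' h h' : Ω → ℝ} (hf : ∀ l ∈ D, f l = f' l) (hh : ∀ l ∈ D, h l = h' l) :
    wcov D w f h = wcov D w f' h' := by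
  unfold wcov
  have e1 : ∑ l ∈ D, w l * (f l * h l) = ∑ l ∈ D, w l * (f' l * h' l) :=
    Finset.sum_congr rfl fun l hl => by rw [hf l hl, hh l hl]
  have e2 : ∑ l ∈ D, w l * f l = ∑ l ∈ D, w l * f' l :=
    Finset.sum_congr rfl fun l hl => by rw [hf l hl]
  have e3 : ∑ l ∈ D, w l * h l = ∑ l ∈ D, w l * h' l :=
    Finset.sum_congr rfl fun l hl => by rw [hh l hl]
  rw [e1, e2, e3]

theorem wcov_self_nonneg (hw : ∀ l ∈ D, 0 ≤ w l) (f : Ω → ℝ) : 0 ≤ wcov D w f f := by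
  have key : ∀ t : ℝ, 0 ≤ (∑ l ∈ D, w l) * (t * t) + (-2 * ∑ l ∈ D, w l * f l) * t
      + ∑ l ∈ D, w l * (f l * f l) := by
    intro t
    have h1 : 0 ≤ ∑ l ∈ D, w l * (f l - t) ^ 2 :=
      Finset.sum_nonneg fun l hl => mul_nonneg (hw l hl) (sq_nonneg _)
    have e : ∑ l ∈ D, w l * (f l - t) ^ 2 = (∑ l ∈ D, w l) * (t * t)
        + (-2 * ∑ l ∈ D, w l * f l) * t + ∑ l ∈ D, w l * (f l * f l) := by
      simp only [Finset.mul_sum, Finset.sum_mul, ← Finset.sum_add_distrib]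
      exact Finset.sum_congr rfl fun l _ => by ring
    linarith
  have hd := discrim_le_zero key
  unfold discrim at hd
  unfold wcov
  nlinarith

/-- Shift invariance. -/
theorem wcov_sub_const (f h : Ω → ℝ) (c c' : ℝ) :
    wcov D w (fun l => f l - c) (fun l => h l - c') = wcov D w f h := by
  unfold wcov
  have e1 : ∑ l ∈ D, w l * ((f l - c) * (h l - c')) = ∑ l ∈ D, w l * (f l * h l)
      - c' * ∑ l ∈ D, w l * f l - c * ∑ l ∈ D, w l * h l + c * c' * ∑ l ∈ D, w l := by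
    simp only [Finset.mul_sum, ← Finset.sum_sub_distrib, ← Finset.sum_add_distrib]
    exact Finset.sum_congr rfl fun l _ => by ring
  have e2 : ∑ l ∈ D, w l * (f l - c) = ∑ l ∈ D, w l * f l - c * ∑ l ∈ D, w l := by
    simp only [Finset.mul_sum, ← Finset.sum_sub_distrib]
    exact Finset.sum_congr rfl fun l _ => by ring
  have e3 : ∑ l ∈ D, w l * (h l - c') = ∑ l ∈ D, w l * h l - c' * ∑ l ∈ D, w l := by
    simp only [Finset.mul_sum, ← Finset.sum_sub_distrib]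
    exact Finset.sum_congr rfl fun l _ => by ring
  rw [e1, e2, e3]; ring

/-- Crude bound by sup norms. -/
theorem wcov_abs_le (hw : ∀ l ∈ D, 0 ≤ w l) (f h : Ω → ℝ) (F G : ℝ) (hF : 0 ≤ F) (_hG : 0 ≤ G)
    (hf : ∀ l ∈ D, |f l| ≤ F) (hh : ∀ l ∈ D, |h l| ≤ G) :
    |wcov D w f h| ≤ 2 * (∑ l ∈ D, w l) ^ 2 * F * G := by
  have hZ : 0 ≤ ∑ l ∈ D, w l := Finset.sum_nonneg hw
  have b1 : |∑ l ∈ D, w l * (f l * h l)| ≤ (∑ l ∈ D, w l) * (F * G) := by
    refine le_trans (Finset.abs_sum_le_sum_abs _ _) ?_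
    rw [Finset.sum_mul]
    refine Finset.sum_le_sum fun l hl => ?_
    rw [abs_mul, abs_of_nonneg (hw l hl), abs_mul]
    exact mul_le_mul_of_nonneg_left
      (mul_le_mul (hf l hl) (hh l hl) (abs_nonneg _) hF) (hw l hl)
  have b2 : |∑ l ∈ D, w l * f l| ≤ (∑ l ∈ D, w l) * F := by
    refine le_trans (Finset.abs_sum_le_sum_abs _ _) ?_
    rw [Finset.sum_mul]
    refine Finset.sum_le_sum fun l hl => ?_
    rw [abs_mul, abs_of_nonneg (hw l hl)]
    exact mul_le_mul_of_nonneg_left (hf l hl) (hw l hl)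
  have b3 : |∑ l ∈ D, w l * h l| ≤ (∑ l ∈ D, w l) * G := by
    refine le_trans (Finset.abs_sum_le_sum_abs _ _) ?_
    rw [Finset.sum_mul]
    refine Finset.sum_le_sum fun l hl => ?_
    rw [abs_mul, abs_of_nonneg (hw l hl)]
    exact mul_le_mul_of_nonneg_left (hh l hl) (hw l hl)
  unfold wcov
  have c1 : |(∑ l ∈ D, w l) * ∑ l ∈ D, w l * (f l * h l)| ≤ (∑ l ∈ D, w l) ^ 2 * F * G := by
    rw [abs_mul, abs_of_nonneg hZ]
    calc (∑ l ∈ D, w l) * |∑ l ∈ D, w l * (f l * h l)|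
        ≤ (∑ l ∈ D, w l) * ((∑ l ∈ D, w l) * (F * G)) := mul_le_mul_of_nonneg_left b1 hZ
      _ = (∑ l ∈ D, w l) ^ 2 * F * G := by ring
  have c2 : |(∑ l ∈ D, w l * f l) * ∑ l ∈ D, w l * h l| ≤ (∑ l ∈ D, w l) ^ 2 * F * G := by
    rw [abs_mul]
    calc |∑ l ∈ D, w l * f l| * |∑ l ∈ D, w l * h l|
        ≤ ((∑ l ∈ D, w l) * F) * ((∑ l ∈ D, w l) * G) :=
          mul_le_mul b2 b3 (abs_nonneg _) (mul_nonneg hZ hF)
      _ = (∑ l ∈ D, w l) ^ 2 * F * G := by ring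
  calc |(∑ l ∈ D, w l) * ∑ l ∈ D, w l * (f l * h l)
          - (∑ l ∈ D, w l * f l) * ∑ l ∈ D, w l * h l|
      ≤ |(∑ l ∈ D, w l) * ∑ l ∈ D, w l * (f l * h l)|
          + |(∑ l ∈ D, w l * f l) * ∑ l ∈ D, w l * h l| := abs_sub _ _
    _ ≤ (∑ l ∈ D, w l) ^ 2 * F * G + (∑ l ∈ D, w l) ^ 2 * F * G := add_le_add c1 c2
    _ = 2 * (∑ l ∈ D, w l) ^ 2 * F * G := by ring

end

end Crest.Agent.Helper42.L3.OneD
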