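/-
S0453 (row 299), WP-D2 (insurance route, no eigenvector): (1D) of `notes/s0453/PROOF.md` §4 for
strictly positive log-concave weights: three independent integers conditioned on their sum.

Proof: the cross-conditional-expectation operator `Nop` is symmetric for the covariance form
`Bq` and contracts the Lipschitz seminorm (Efron's monotonicity + `l₀ + l₁ + l₂ = n`), so
`Bq φ (Nop^k φ)` is bounded in `k`; the power trick gives `|Bq φ (Nop φ)| ≤ Bq φ φ`.
-/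
import Crest.Agent.Helper42.L3.OneD.Power
import Crest.Agent.Helper42.L3.OneD.TwoSite
import Crest.Agent.Helper42.L3.OneD.WCov

set_option autoImplicit false

namespace Crest.Agent.Helper42.L3.OneD

open Finset

/-! ### `Fin 3` cyclic bookkeeping -/

theorem fin3_succ_ne (i : Fin 3) : i + 1 ≠ i := by revert i; decide
theorem fin3_succ2_ne (i : Fin 3) : i + 2 ≠ i := by revert i; decide
theorem fin3_succ2_ne' (i : Fin 3) : i + 2 ≠ i + 1 := by revert i; decide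
theorem fin3_cases (i j : Fin 3) : j = i ∨ j = i + 1 ∨ j = i + 2 := by revert i j; decide
theorem fin3_012 (i : Fin 3) : i = 0 ∨ i = 1 ∨ i = 2 := by revert i; decide

theorem sum_cyc {M : Type*} [AddCommMonoid M] (i : Fin 3) (F : Fin 3 → M) :
    ∑ j, F j = F i + F (i + 1) + F (i + 2) := by
  have h11 : (1 : Fin 3) + 1 = 2 := by decide
  have h12 : (1 : Fin 3) + 2 = 0 := by decide
  have h21 : (2 : Fin 3) + 1 = 0 := by decide
  have h22 : (2 : Fin 3) + 2 = 1 := by decide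
  rcases fin3_012 i with rfl | rfl | rfl
  · simp [Fin.sum_univ_three]
  · simp only [Fin.sum_univ_three, h11, h12]; abel
  · simp only [Fin.sum_univ_three, h21, h22]; abel

theorem prod_cyc (i : Fin 3) (F : Fin 3 → ℝ) :
    ∏ j, F j = F i * F (i + 1) * F (i + 2) := by
  have h11 : (1 : Fin 3) + 1 = 2 := by decide
  have h12 : (1 : Fin 3) + 2 = 0 := by decide
  have h21 : (2 : Fin 3) + 1 = 0 := by decide
  have h22 : (2 : Fin 3) + 2 = 1 := by decide
  rcases fin3_012 i with rfl | rfl | rfl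
  · simp [Fin.prod_univ_three]
  · simp only [Fin.prod_univ_three, h11, h12]; ring
  · simp only [Fin.prod_univ_three, h21, h22]; ring

theorem erase_cyc (i : Fin 3) (G : Fin 3 → ℝ) :
    ∑ j ∈ univ.erase i, G j = G (i + 1) + G (i + 2) := by
  have h1 := Finset.add_sum_erase univ G (Finset.mem_univ i)
  have h2 := sum_cyc i G
  linarith

/-- The triple with value `x` at `i`, `y` at `i+1`, `z` at `i+2`. -/
def tup (i : Fin 3) (x y z : ℕ) : Fin 3 → ℕ :=
  fun j => if j = i then x else if j = i + 1 then y else z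

@[simp] theorem tup_self (i : Fin 3) (x y z : ℕ) : tup i x y z i = x := if_pos rfl
@[simp] theorem tup_succ (i : Fin 3) (x y z : ℕ) : tup i x y z (i + 1) = y := by
  unfold tup; rw [if_neg (fin3_succ_ne i), if_pos rfl]
@[simp] theorem tup_succ2 (i : Fin 3) (x y z : ℕ) : tup i x y z (i + 2) = z := by
  unfold tup; rw [if_neg (fin3_succ2_ne i), if_neg (fin3_succ2_ne' i)]

/-! ### The three-site model -/

/-- The simplex of level triples. -/
abbrev Dn (n : ℕ) : Finset (Fin 3 → ℕ) := Finset.Nat.antidiagonalTuple 3 n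

/-- The product weight. -/
def wt (p : Fin 3 → ℕ → ℝ) (l : Fin 3 → ℕ) : ℝ := ∏ i, p i (l i)

theorem wt_pos (p : Fin 3 → ℕ → ℝ) (hp : ∀ i x, 0 < p i x) (l : Fin 3 → ℕ) : 0 < wt p l :=
  Finset.prod_pos fun i _ => hp i (l i)

theorem wt_tup (p : Fin 3 → ℕ → ℝ) (i : Fin 3) (x y z : ℕ) :
    wt p (tup i x y z) = p i x * p (i + 1) y * p (i + 2) z := by
  unfold wt; rw [prod_cyc i]; simp

theorem le_of_mem_Dn {n : ℕ} {l : Fin 3 → ℕ} (hl : l ∈ Dn n) (i : Fin 3) : l i ≤ n := by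
  rw [Finset.Nat.mem_antidiagonalTuple] at hl
  rw [← hl]
  exact Finset.single_le_sum (fun j _ => Nat.zero_le (l j)) (Finset.mem_univ i)

/-- Parametrisation of the fibre `l i = x` by `y = l (i+1)`. -/
theorem fibre_sum (p : Fin 3 → ℕ → ℝ) (n : ℕ) (i : Fin 3) (x : ℕ) (hx : x ≤ n)
    (F : (Fin 3 → ℕ) → ℝ) :
    ∑ l ∈ (Dn n).filter (fun l => l i = x), wt p l * F l
      = p i x * ∑ y ∈ range (n - x + 1),
          p (i + 1) y * p (i + 2) (n - x - y) * F (tup i x y (n - x - y)) := by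
  have hleft : ∀ l ∈ (Dn n).filter (fun l => l i = x),
      tup i x (l (i + 1)) (n - x - l (i + 1)) = l := by
    intro l hl
    simp only [Finset.mem_filter, Finset.Nat.mem_antidiagonalTuple] at hl
    have h := hl.1
    rw [sum_cyc i] at h
    funext j
    rcases fin3_cases i j with rfl | rfl | rfl
    · simp [hl.2]
    · simp
    · simp only [tup_succ2]; omega
  rw [Finset.mul_sum]
  refine Finset.sum_nbij' (fun l => l (i + 1)) (fun y => tup i x y (n - x - y)) ?_ ?_ hleft ?_ ?_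
  · intro l hl
    simp only [Finset.mem_filter, Finset.Nat.mem_antidiagonalTuple] at hl
    have h := hl.1
    rw [sum_cyc i] at h
    simp only [Finset.mem_range]; omega
  · intro y hy
    simp only [Finset.mem_range] at hy
    simp only [Finset.mem_filter, Finset.Nat.mem_antidiagonalTuple]
    refine ⟨?_, tup_self ..⟩
    rw [sum_cyc i]; simp only [tup_self, tup_succ, tup_succ2]; omega
  · intro y _; simp
  · intro l hl
    have h := hleft l hl
    simp only [Finset.mem_filter] at hl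
    conv_lhs => rw [← h]
    rw [wt_tup]; ring

/-- Marginal weight of `l i = x`. -/
def Zc (p : Fin 3 → ℕ → ℝ) (n : ℕ) (i : Fin 3) (x : ℕ) : ℝ :=
  ∑ l ∈ (Dn n).filter (fun l => l i = x), wt p l

/-- Conditional expectation given `l i = x`. -/
noncomputable def cexp (p : Fin 3 → ℕ → ℝ) (n : ℕ) (i : Fin 3) (F : (Fin 3 → ℕ) → ℝ) (x : ℕ) : ℝ :=
  (∑ l ∈ (Dn n).filter (fun l => l i = x), wt p l * F l) / Zc p n i x

theorem tower (p : Fin 3 → ℕ → ℝ) (hp : ∀ i x, 0 < p i x) (n : ℕ) (i : Fin 3) (g : ℕ → ℝ)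
    (F : (Fin 3 → ℕ) → ℝ) :
    ∑ l ∈ Dn n, wt p l * (g (l i) * cexp p n i F (l i)) = ∑ l ∈ Dn n, wt p l * (g (l i) * F l) := by
  have hmaps : ∀ l ∈ Dn n, (fun l : Fin 3 → ℕ => l i) l ∈ (Dn n).image (fun l => l i) :=
    fun l hl => Finset.mem_image_of_mem _ hl
  rw [← Finset.sum_fiberwise_of_maps_to hmaps (fun l => wt p l * (g (l i) * cexp p n i F (l i))),
    ← Finset.sum_fiberwise_of_maps_to hmaps (fun l => wt p l * (g (l i) * F l))]
  refine Finset.sum_congr rfl fun x hx => ?_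
  obtain ⟨l₀, hl₀, rfl⟩ := Finset.mem_image.mp hx
  have hZ : 0 < Zc p n i (l₀ i) :=
    Finset.sum_pos (fun l _ => wt_pos p hp l) ⟨l₀, by simp [hl₀]⟩
  have e1 : ∑ l ∈ (Dn n).filter (fun l => l i = l₀ i), wt p l * (g (l i) * cexp p n i F (l i))
      = g (l₀ i) * cexp p n i F (l₀ i) * Zc p n i (l₀ i) := by
    unfold Zc; rw [Finset.mul_sum]
    refine Finset.sum_congr rfl fun l hl => ?_
    rw [(Finset.mem_filter.mp hl).2]; ring
  have e2 : ∑ l ∈ (Dn n).filter (fun l => l i = l₀ i), wt p l * (g (l i) * F l)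
      = g (l₀ i) * ∑ l ∈ (Dn n).filter (fun l => l i = l₀ i), wt p l * F l := by
    rw [Finset.mul_sum]
    refine Finset.sum_congr rfl fun l hl => ?_
    rw [(Finset.mem_filter.mp hl).2]; ring
  rw [e1, e2]
  unfold cexp
  field_simp

/-- The block covariance form `∑ i, Cov(φ i (l i), ψ i (l i))`. -/
def Bq (p : Fin 3 → ℕ → ℝ) (n : ℕ) (φ ψ : Fin 3 → ℕ → ℝ) : ℝ :=
  ∑ i, wcov (Dn n) (wt p) (fun l => φ i (l i)) (fun l => ψ i (l i))

/-- The cross covariance form `∑ i ≠ j, Cov(φ i (l i), ψ j (l j))`. -/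
def Xq (p : Fin 3 → ℕ → ℝ) (n : ℕ) (φ ψ : Fin 3 → ℕ → ℝ) : ℝ :=
  ∑ i, ∑ j ∈ univ.erase i, wcov (Dn n) (wt p) (fun l => φ i (l i)) (fun l => ψ j (l j))

/-- The cross conditional expectation operator (with a minus sign). -/
noncomputable def Nop (p : Fin 3 → ℕ → ℝ) (n : ℕ) (φ : Fin 3 → ℕ → ℝ) : Fin 3 → ℕ → ℝ :=
  fun i x => -cexp p n i (fun l => ∑ j ∈ univ.erase i, φ j (l j)) x

theorem Bq_comm (p : Fin 3 → ℕ → ℝ) (n : ℕ) (φ ψ : Fin 3 → ℕ → ℝ) :
    Bq p n φ ψ = Bq p n ψ φ :=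
  Finset.sum_congr rfl fun _ _ => wcov_comm _ _ _ _

theorem Bq_add_left (p : Fin 3 → ℕ → ℝ) (n : ℕ) (φ φ' ψ : Fin 3 → ℕ → ℝ) :
    Bq p n (φ + φ') ψ = Bq p n φ ψ + Bq p n φ' ψ := by
  unfold Bq
  rw [← Finset.sum_add_distrib]
  refine Finset.sum_congr rfl fun i _ => ?_
  rw [← wcov_add_left]; rfl

theorem Bq_smul_left (p : Fin 3 → ℕ → ℝ) (n : ℕ) (c : ℝ) (φ ψ : Fin 3 → ℕ → ℝ) :
    Bq p n (c • φ) ψ = c * Bq p n φ ψ := by
  unfold Bq
  rw [Finset.mul_sum]
  refine Finset.sum_congr rfl fun i _ => ?_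
  rw [← wcov_smul_left]; rfl

theorem Bq_self_nonneg (p : Fin 3 → ℕ → ℝ) (hp : ∀ i x, 0 < p i x) (n : ℕ)
    (φ : Fin 3 → ℕ → ℝ) : 0 ≤ Bq p n φ φ :=
  Finset.sum_nonneg fun _ _ => wcov_self_nonneg _ _ (fun l _ => (wt_pos p hp l).le) _

theorem Xq_symm (p : Fin 3 → ℕ → ℝ) (n : ℕ) (φ ψ : Fin 3 → ℕ → ℝ) :
    Xq p n φ ψ = Xq p n ψ φ := by
  unfold Xq
  rw [Finset.sum_comm' (t' := univ) (s' := fun j => univ.erase j)
    (by intro x y; simp [ne_comm])]
  refine Finset.sum_congr rfl fun j _ => Finset.sum_congr rfl fun i _ => ?_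
  exact wcov_comm _ _ _ _

/-- `Bq ψ (Nop φ) = - Xq ψ φ`. -/
theorem Bq_Nop (p : Fin 3 → ℕ → ℝ) (hp : ∀ i x, 0 < p i x) (n : ℕ) (φ ψ : Fin 3 → ℕ → ℝ) :
    Bq p n ψ (Nop p n φ) = -Xq p n ψ φ := by
  unfold Bq Xq
  rw [← Finset.sum_neg_distrib]
  refine Finset.sum_congr rfl fun i _ => ?_
  rw [← wcov_sum_right, ← wcov_neg_right]
  have t1 := tower p hp n i (ψ i) (fun l => ∑ j ∈ univ.erase i, φ j (l j))
  have t2 := tower p hp n i (fun _ => 1) (fun l => ∑ j ∈ univ.erase i, φ j (l j))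
  simp only [one_mul] at t2
  unfold wcov
  have e1 : ∑ l ∈ Dn n, wt p l * (ψ i (l i) * Nop p n φ i (l i))
      = ∑ l ∈ Dn n, wt p l * (ψ i (l i) * -∑ j ∈ univ.erase i, φ j (l j)) := by
    have : ∀ l : Fin 3 → ℕ, wt p l * (ψ i (l i) * Nop p n φ i (l i))
        = -(wt p l * (ψ i (l i) * cexp p n i (fun l => ∑ j ∈ univ.erase i, φ j (l j)) (l i))) := by
      intro l; simp only [Nop]; ring
    simp only [this, Finset.sum_neg_distrib, t1]
    rw [← Finset.sum_neg_distrib]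
    exact Finset.sum_congr rfl fun l _ => by ring
  have e2 : ∑ l ∈ Dn n, wt p l * Nop p n φ i (l i)
      = ∑ l ∈ Dn n, wt p l * -∑ j ∈ univ.erase i, φ j (l j) := by
    have : ∀ l : Fin 3 → ℕ, wt p l * Nop p n φ i (l i)
        = -(wt p l * cexp p n i (fun l => ∑ j ∈ univ.erase i, φ j (l j)) (l i)) := by
      intro l; simp only [Nop]; ring
    simp only [this, Finset.sum_neg_distrib, t2]
    rw [← Finset.sum_neg_distrib]
    exact Finset.sum_congr rfl fun l _ => by ring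
  rw [e1, e2]

theorem Nop_symm (p : Fin 3 → ℕ → ℝ) (hp : ∀ i x, 0 < p i x) (n : ℕ) (φ ψ : Fin 3 → ℕ → ℝ) :
    Bq p n (Nop p n φ) ψ = Bq p n φ (Nop p n ψ) := by
  rw [Bq_comm, Bq_Nop p hp, Bq_Nop p hp, Xq_symm]

theorem Nop_iter_symm (p : Fin 3 → ℕ → ℝ) (hp : ∀ i x, 0 < p i x) (n : ℕ) (k : ℕ) :
    ∀ φ ψ : Fin 3 → ℕ → ℝ, Bq p n ((Nop p n)^[k] φ) ψ = Bq p n φ ((Nop p n)^[k] ψ) := by
  induction k with
  | zero => intro φ ψ; rfl
  | succ k ih =>
    intro φ ψ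
    rw [Function.iterate_succ_apply', Nop_symm p hp, ih, ← Function.iterate_succ_apply]

/-- Variance of the total. -/
theorem wcov_tot (p : Fin 3 → ℕ → ℝ) (n : ℕ) (φ : Fin 3 → ℕ → ℝ) :
    wcov (Dn n) (wt p) (fun l => ∑ i, φ i (l i)) (fun l => ∑ i, φ i (l i))
      = Bq p n φ φ + Xq p n φ φ := by
  rw [wcov_sum_left]
  unfold Bq Xq
  rw [← Finset.sum_add_distrib]
  refine Finset.sum_congr rfl fun i _ => ?_
  rw [wcov_sum_right, ← Finset.add_sum_erase univ _ (Finset.mem_univ i)]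

/-! ### Lipschitz seminorm -/

/-- `φ` has increments bounded by `c` on `[0, n]`. -/
def Lip (n : ℕ) (φ : Fin 3 → ℕ → ℝ) (c : ℝ) : Prop :=
  ∀ i x, x < n → |φ i (x + 1) - φ i x| ≤ c

theorem lip_bound {n : ℕ} {φ : Fin 3 → ℕ → ℝ} {c : ℝ} (h : Lip n φ c) (hc : 0 ≤ c) (i : Fin 3) :
    ∀ x, x ≤ n → |φ i x - φ i 0| ≤ (n : ℝ) * c := by
  have key : ∀ x, x ≤ n → |φ i x - φ i 0| ≤ (x : ℝ) * c := by
    intro x
    induction x with
    | zero => intro _; simp
    | succ x ih =>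
      intro hx
      have h1 := ih (by omega)
      have h2 := h i x (by omega)
      have : φ i (x + 1) - φ i 0 = (φ i (x + 1) - φ i x) + (φ i x - φ i 0) := by ring
      rw [this]
      refine le_trans (abs_add_le _ _) ?_
      push_cast
      linarith
  intro x hx
  refine le_trans (key x hx) ?_
  exact mul_le_mul_of_nonneg_right (by exact_mod_cast hx) hc

theorem Bq_abs_le (p : Fin 3 → ℕ → ℝ) (hp : ∀ i x, 0 < p i x) (n : ℕ) (φ ψ : Fin 3 → ℕ → ℝ)
    (c c' : ℝ) (hc : 0 ≤ c) (hc' : 0 ≤ c') (hφ : Lip n φ c) (hψ : Lip n ψ c') :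
    |Bq p n φ ψ| ≤ 6 * (∑ l ∈ Dn n, wt p l) ^ 2 * ((n : ℝ) * c) * ((n : ℝ) * c') := by
  unfold Bq
  refine le_trans (Finset.abs_sum_le_sum_abs _ _) ?_
  have hterm : ∀ i : Fin 3, |wcov (Dn n) (wt p) (fun l => φ i (l i)) (fun l => ψ i (l i))|
      ≤ 2 * (∑ l ∈ Dn n, wt p l) ^ 2 * ((n : ℝ) * c) * ((n : ℝ) * c') := by
    intro i
    rw [← wcov_sub_const _ _ _ _ (φ i 0) (ψ i 0)]
    exact wcov_abs_le _ _ (fun l _ => (wt_pos p hp l).le) _ _ _ _
      (mul_nonneg (Nat.cast_nonneg n) hc) (mul_nonneg (Nat.cast_nonneg n) hc')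
      (fun l hl => lip_bound hφ hc i _ (le_of_mem_Dn hl i))
      (fun l hl => lip_bound hψ hc' i _ (le_of_mem_Dn hl i))
  refine le_trans (Finset.sum_le_sum fun i _ => hterm i) ?_
  rw [Finset.sum_const, Finset.card_univ, Fintype.card_fin]
  simp only [nsmul_eq_mul, Nat.cast_ofNat]
  linarith

/-- The conditional expectation of the two other sites as two-site expectations. -/
theorem cexp_pair (p : Fin 3 → ℕ → ℝ) (hp : ∀ i x, 0 < p i x) (n : ℕ) (i : Fin 3) (x : ℕ)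
    (hx : x ≤ n) (φ : Fin 3 → ℕ → ℝ) :
    cexp p n i (fun l => ∑ j ∈ univ.erase i, φ j (l j)) x
      = A2 (p (i + 1)) (p (i + 2)) (n - x) (φ (i + 1)) / T2 (p (i + 1)) (p (i + 2)) (n - x)
        + A2 (p (i + 2)) (p (i + 1)) (n - x) (φ (i + 2)) / T2 (p (i + 2)) (p (i + 1)) (n - x) := by
  unfold cexp Zc
  have hZ := fibre_sum p n i x hx (fun _ => 1)
  have hF := fibre_sum p n i x hx (fun l => ∑ j ∈ univ.erase i, φ j (l j))
  have e1 : ∑ l ∈ (Dn n).filter (fun l => l i = x), wt p l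
      = p i x * T2 (p (i + 1)) (p (i + 2)) (n - x) := by
    simpa [T2] using hZ
  have e2 : ∑ y ∈ range (n - x + 1), p (i + 1) y * p (i + 2) (n - x - y)
        * (∑ j ∈ univ.erase i, φ j (tup i x y (n - x - y) j))
      = A2 (p (i + 1)) (p (i + 2)) (n - x) (φ (i + 1))
        + A2 (p (i + 2)) (p (i + 1)) (n - x) (φ (i + 2)) := by
    rw [A2_reflect (p (i + 1)) (p (i + 2))]
    unfold A2
    rw [← Finset.sum_add_distrib]
    refine Finset.sum_congr rfl fun y _ => ?_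
    rw [erase_cyc]
    simp only [tup_succ, tup_succ2]
    ring
  rw [e1, hF, e2, T2_symm (p (i + 1)) (p (i + 2))]
  have hT := (T2_pos (p (i + 1)) (p (i + 2)) (hp _) (hp _) (n - x)).ne'
  have hpx := (hp i x).ne'
  field_simp

/-- `Nop` contracts the Lipschitz seminorm. -/
theorem lip_Nop (p : Fin 3 → ℕ → ℝ) (hp : ∀ i x, 0 < p i x)
    (hlc : ∀ i x, p i x * p i (x + 2) ≤ p i (x + 1) ^ 2) (n : ℕ) (φ : Fin 3 → ℕ → ℝ) (c : ℝ)
    (hφ : Lip n φ c) : Lip n (Nop p n φ) c := by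
  intro i x hx
  simp only [Nop]
  rw [cexp_pair p hp n i (x + 1) (by omega), cexp_pair p hp n i x (by omega)]
  obtain ⟨s, hs⟩ : ∃ s, n - (x + 1) = s := ⟨_, rfl⟩
  have hs' : n - x = s + 1 := by omega
  rw [hs, hs']
  set a := p (i + 1) with ha
  set b := p (i + 2) with hb
  have h1 := two_site_lip a b (hp _) (hp _) (hlc (i + 2)) s (φ (i + 1)) c
    (fun t ht => hφ (i + 1) t (by omega))
  have h2 := two_site_lip b a (hp _) (hp _) (hlc (i + 1)) s (φ (i + 2)) c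
    (fun t ht => hφ (i + 2) t (by omega))
  have hT := (T2_pos a b (hp _) (hp _) s).ne'
  have hT1 := (T2_pos a b (hp _) (hp _) (s + 1)).ne'
  have m1 := mean_add a b s
  have m2 := mean_add a b (s + 1)
  have k1 : A2 a b s (fun y => (y : ℝ)) / T2 a b s + A2 b a s (fun y => (y : ℝ)) / T2 b a s
      = (s : ℝ) := by
    rw [T2_symm a b s, ← add_div, m1]; field_simp
  have k2 : A2 a b (s + 1) (fun y => (y : ℝ)) / T2 a b (s + 1)
      + A2 b a (s + 1) (fun y => (y : ℝ)) / T2 b a (s + 1) = ((s + 1 : ℕ) : ℝ) := by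
    rw [T2_symm a b (s + 1), ← add_div, m2]; field_simp
  push_cast at k2
  have e : -(A2 a b s (φ (i + 1)) / T2 a b s + A2 b a s (φ (i + 2)) / T2 b a s)
      - -(A2 a b (s + 1) (φ (i + 1)) / T2 a b (s + 1)
          + A2 b a (s + 1) (φ (i + 2)) / T2 b a (s + 1))
      = (A2 a b (s + 1) (φ (i + 1)) / T2 a b (s + 1) - A2 a b s (φ (i + 1)) / T2 a b s)
        + (A2 b a (s + 1) (φ (i + 2)) / T2 b a (s + 1) - A2 b a s (φ (i + 2)) / T2 b a s) := by
    ring
  rw [e]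
  refine le_trans (abs_add_le _ _) ?_
  have : c * (A2 a b (s + 1) (fun y => (y : ℝ)) / T2 a b (s + 1)
          - A2 a b s (fun y => (y : ℝ)) / T2 a b s)
      + c * (A2 b a (s + 1) (fun y => (y : ℝ)) / T2 b a (s + 1)
          - A2 b a s (fun y => (y : ℝ)) / T2 b a s) = c := by
    have : (A2 a b (s + 1) (fun y => (y : ℝ)) / T2 a b (s + 1)
          - A2 a b s (fun y => (y : ℝ)) / T2 a b s)
      + (A2 b a (s + 1) (fun y => (y : ℝ)) / T2 b a (s + 1)
          - A2 b a s (fun y => (y : ℝ)) / T2 b a s) = 1 := by linarith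
    rw [← mul_add, this, mul_one]
  linarith

theorem lip_Nop_iter (p : Fin 3 → ℕ → ℝ) (hp : ∀ i x, 0 < p i x)
    (hlc : ∀ i x, p i x * p i (x + 2) ≤ p i (x + 1) ^ 2) (n : ℕ) (φ : Fin 3 → ℕ → ℝ) (c : ℝ)
    (hφ : Lip n φ c) : ∀ k, Lip n ((Nop p n)^[k] φ) c := by
  intro k
  induction k with
  | zero => exact hφ
  | succ k ih =>
    rw [Function.iterate_succ_apply']
    exact lip_Nop p hp hlc n _ c ih

/-- The heart of (1D): the cross covariances are dominated by the variances. -/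
theorem Xq_le_Bq (p : Fin 3 → ℕ → ℝ) (hp : ∀ i x, 0 < p i x)
    (hlc : ∀ i x, p i x * p i (x + 2) ≤ p i (x + 1) ^ 2) (n : ℕ) (φ : Fin 3 → ℕ → ℝ) :
    Xq p n φ φ ≤ Bq p n φ φ := by
  -- a Lipschitz constant
  obtain ⟨c, hc0, hLip⟩ : ∃ c : ℝ, 0 ≤ c ∧ Lip n φ c := by
    refine ⟨∑ i : Fin 3, ∑ x ∈ range n, |φ i (x + 1) - φ i x|,
      Finset.sum_nonneg fun i _ => Finset.sum_nonneg fun x _ => abs_nonneg _, ?_⟩
    intro i x hx
    have h1 : |φ i (x + 1) - φ i x| ≤ ∑ x ∈ range n, |φ i (x + 1) - φ i x| :=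
      Finset.single_le_sum (f := fun x => |φ i (x + 1) - φ i x|) (fun x _ => abs_nonneg _)
        (Finset.mem_range.mpr hx)
    have h2 : ∑ x ∈ range n, |φ i (x + 1) - φ i x|
        ≤ ∑ i : Fin 3, ∑ x ∈ range n, |φ i (x + 1) - φ i x| :=
      Finset.single_le_sum (f := fun i : Fin 3 => ∑ x ∈ range n, |φ i (x + 1) - φ i x|)
        (fun i _ => Finset.sum_nonneg fun x _ => abs_nonneg _) (Finset.mem_univ i)
    exact le_trans h1 h2
  have hCS := cs_of_psd (Bq p n) (Bq_comm p n) (Bq_add_left p n) (Bq_smul_left p n)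
    (Bq_self_nonneg p hp n)
  set a : ℕ → ℝ := fun k => Bq p n φ ((Nop p n)^[k] φ) with ha
  have hsq : ∀ k, a k ^ 2 ≤ a 0 * a (2 * k) := by
    intro k
    have h1 := hCS φ ((Nop p n)^[k] φ)
    have h2 : Bq p n ((Nop p n)^[k] φ) ((Nop p n)^[k] φ) = a (2 * k) := by
      rw [Nop_iter_symm p hp n k, ← Function.iterate_add_apply, two_mul]
    rw [h2] at h1
    exact h1
  have hbd : ∀ k, a k ≤ 6 * (∑ l ∈ Dn n, wt p l) ^ 2 * ((n : ℝ) * c) * ((n : ℝ) * c) := by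
    intro k
    exact le_trans (le_abs_self _)
      (Bq_abs_le p hp n φ _ c c hc0 hc0 hLip (lip_Nop_iter p hp hlc n φ c hLip k))
  have key := abs_le_of_sq_le_mul_bounded a _ (Bq_self_nonneg p hp n φ) hsq hbd
  have h1 : a 1 = -Xq p n φ φ := by
    simp only [ha, Function.iterate_one]
    exact Bq_Nop p hp n φ φ
  have h0 : a 0 = Bq p n φ φ := rfl
  rw [h1, h0, abs_neg] at key
  exact le_trans (le_abs_self _) key

/-- **(1D)** for strictly positive log-concave weights. -/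
theorem oneD (p : Fin 3 → ℕ → ℝ) (hp : ∀ i x, 0 < p i x)
    (hlc : ∀ i x, p i x * p i (x + 2) ≤ p i (x + 1) ^ 2) (n : ℕ) (φ : Fin 3 → ℕ → ℝ) :
    (∑ l ∈ Finset.Nat.antidiagonalTuple 3 n, ∏ i, p i (l i))
          * (∑ l ∈ Finset.Nat.antidiagonalTuple 3 n, (∏ i, p i (l i)) * (∑ i, φ i (l i)) ^ 2)
        - (∑ l ∈ Finset.Nat.antidiagonalTuple 3 n, (∏ i, p i (l i)) * ∑ i, φ i (l i)) ^ 2
      ≤ 2 * ∑ i, ((∑ l ∈ Finset.Nat.antidiagonalTuple 3 n, ∏ i, p i (l i))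
          * (∑ l ∈ Finset.Nat.antidiagonalTuple 3 n, (∏ i, p i (l i)) * (φ i (l i)) ^ 2)
        - (∑ l ∈ Finset.Nat.antidiagonalTuple 3 n, (∏ i, p i (l i)) * φ i (l i)) ^ 2) := by
  have h1 := wcov_tot p n φ
  have h2 := Xq_le_Bq p hp hlc n φ
  have h3 : wcov (Dn n) (wt p) (fun l => ∑ i, φ i (l i)) (fun l => ∑ i, φ i (l i))
      ≤ 2 * Bq p n φ φ := by linarith
  simp only [Bq, wcov, wt] at h3
  simp only [sq]
  exact h3

end Crest.Agent.Helper42.L3.OneD
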